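import Vale.Agent.P235.H141.CX.Defs
import Vale.Agent.P235.H141.Star.Piece
import Vale.Agent.P235.K5.H12.Fin
import Vale.Agent.P235.R2.H598.Fin

/-!
# P235, line CX: [CX4] `MetStmt → CXStmt` (helper237)
-/

set_option autoImplicit false
set_option linter.all false

namespace Vale.Agent.P235.H237.CX

open Finset Vale.Agent.P235 Vale.Agent.P235.K5 Vale.Agent.P235.H141.CX

/-- a marginal of a product law -/
theorem marg {ι : Type} [Fintype ι] [DecidableEq ι] {κ : ι → Type} [∀ i, Fintype (κ i)]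
    (q : ∀ i, κ i → ℝ) (hq : ∀ i, ∑ j, q i j = 1) (h : ∀ i, κ i → ℝ) (t : ι) :
    ∑ ω : ∀ i, κ i, (∏ i, q i (ω i)) * h t (ω t) = ∑ j, q t j * h t j := by
  have e := Finset.prod_univ_sum (fun i => (Finset.univ : Finset (κ i)))
    (fun i j => q i j * if i = t then h i j else 1)
  rw [Fintype.piFinset_univ] at e
  have e1 : ∀ ω : ∀ i, κ i, ∏ i, (q i (ω i) * if i = t then h i (ω i) else 1) =
      (∏ i, q i (ω i)) * h t (ω t) := by
    intro ω
    rw [Finset.prod_mul_distrib, Finset.prod_ite_eq', if_pos (Finset.mem_univ t)]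
  have e2 : ∏ i, ∑ j, (q i j * if i = t then h i j else 1) = ∑ j, q t j * h t j := by
    rw [Finset.prod_eq_single t]
    · simp
    · intro i _ hi
      simp only [if_neg hi, mul_one]
      exact hq i
    · intro h
      exact absurd (Finset.mem_univ t) h
  rw [← e2, e]
  exact Finset.sum_congr rfl fun ω _ => (e1 ω).symm

/-- the random functions of a bag -/
theorem bag {k n : ℕ} {V : Type} [Finite V] {H : SimpleGraph V} {B : ℕ → Set V}
    (h : Glued k H n B) {d : V → V → ℝ} (hd : IsMet d) (hG : Gen H d) {C : ℝ} (hC : 1 ≤ C)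
    {t : ℕ} (ht : t < n) (hne : (B t).Nonempty) (hB : DistortionLE (H.induce (B t)) C) :
    ∃ (r : V → ℝ) (κ : Type) (_ : Fintype κ) (q : κ → ℝ) (g : κ → V → ℝ),
      (∀ k, 0 ≤ q k) ∧ ∑ k, q k = 1 ∧
      (∀ a ∈ Adh B t, r a = 0) ∧ (∀ x ∈ B t, ∀ a ∈ Adh B t, |r x| ≤ d x a) ∧
      (∀ k, ∀ a ∈ Adh B t, g k a = 0) ∧ (∀ k, ∀ x ∈ B t, ∀ a ∈ Adh B t, |g k x| ≤ d x a) ∧
      (∀ x ∈ B t, ∀ y ∈ B t, |r x - r y| ≤ d x y) ∧
      (∀ x ∈ B t, ∀ y ∈ B t,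
        min (d x y) (r x + r y) / 48 - |r x - r y| / 3 ≤ ∑ k, q k * |g k x - g k y|) ∧
      (∀ x ∈ B t, ∀ y ∈ B t, ∑ k, q k * |g k x - g k y| ≤ (2 * C + 2) * d x y) ∧
      (∀ x, 0 ≤ r x) ∧
      ∀ x ∈ B t, ∀ y ∈ B t, d x y ≤ r x + r y ∨ ∃ a ∈ Adh B t, d y a = r y := by
  classical
  obtain ⟨r0, hr0⟩ := hne
  obtain ⟨A, hA, hAS, hAc⟩ : ∃ A : Finset V, A.Nonempty ∧ (∀ a ∈ Adh B t, a ∈ A) ∧
      ((∀ a ∈ A, a ∈ Adh B t) ∨ ∀ a ∈ A, a = r0) := by
    by_cases hS : (Adh B t).Nonempty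
    · refine ⟨(Set.toFinite (Adh B t)).toFinset, ?_, ?_, Or.inl ?_⟩
      · obtain ⟨a, ha⟩ := hS
        exact ⟨a, (Set.Finite.mem_toFinset _).2 ha⟩
      · intro a ha
        exact (Set.Finite.mem_toFinset _).2 ha
      · intro a ha
        exact (Set.Finite.mem_toFinset _).1 ha
    · exact ⟨{r0}, Finset.singleton_nonempty _, fun a ha => (hS ⟨a, ha⟩).elim,
        Or.inr fun a ha => Finset.mem_singleton.1 ha⟩
  set r : V → ℝ := fun x => A.inf' hA (fun a => d x a) with hr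
  have hr1 : ∀ x, ∀ a ∈ A, r x ≤ d x a := fun x a ha => Finset.inf'_le (fun a => d x a) ha
  have hr2 : ∀ x, ∃ a ∈ A, r x = d x a := fun x => by
    obtain ⟨a, ha, e⟩ := Finset.exists_mem_eq_inf' hA (fun a => d x a)
    exact ⟨a, ha, e⟩
  have hrn : ∀ x, 0 ≤ r x := fun x => by
    obtain ⟨a, _, e⟩ := hr2 x
    rw [e]
    exact hd.nonneg _ _
  have hrl : ∀ x y, r x ≤ r y + d x y := by
    intro x y
    obtain ⟨a, ha, e⟩ := hr2 y
    have h1 := hr1 x a ha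
    have h2 := hd.tri x y a
    linarith
  have hrl' : ∀ x y, |r x - r y| ≤ d x y := by
    intro x y
    have h1 := hrl x y
    have h2 := hrl y x
    rw [hd.symm y x] at h2
    rw [abs_le]
    constructor <;> linarith
  have hrA : ∀ a ∈ Adh B t, r a = 0 := by
    intro a ha
    have h1 := hr1 a a (hAS a ha)
    rw [hd.self] at h1
    exact le_antisymm h1 (hrn a)
  have hd' : IsMet fun x y : B t => d x y :=
    ⟨fun x => hd.self _, fun x y hxy => hd.pos _ _ fun e => hxy (Subtype.ext e),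
      fun x y => hd.symm _ _, fun x y z => hd.tri _ _ _⟩
  have hG' : Gen (H.induce (B t)) fun x y : B t => d x y := h.gen_bag hd hG ht
  have hneB : Nonempty (B t) := ⟨⟨r0, hr0⟩⟩
  have hc : (H.induce (B t)).Connected := R2.H598.connected_of_gen hd' hG'
  obtain ⟨f, hf, h1, h2⟩ := H141.Star.emb_of_gen hB hc hd' hG'
  obtain ⟨κ, hκ, q, g, hq, hq1, hb, hlo, hup⟩ := H141.Star.fam_all hC hd' hf h1 h2
    (fun x : B t => r x) (fun x => hrn x) (fun x y => hrl' x y)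
  have eg : ∀ (k : κ) (x : V) (hx : x ∈ B t),
      (if hx : x ∈ B t then g k ⟨x, hx⟩ else 0) = g k ⟨x, hx⟩ := fun k x hx => dif_pos hx
  refine ⟨r, κ, hκ, q, fun k x => if hx : x ∈ B t then g k ⟨x, hx⟩ else 0, hq, hq1, hrA, ?_, ?_,
    ?_, fun x _ y _ => hrl' x y, ?_, ?_, hrn, ?_⟩
  · intro x _ a ha
    rw [abs_of_nonneg (hrn x)]
    exact hr1 x a (hAS a ha)
  · intro k a ha
    have h3 := hb k ⟨a, ha.1⟩
    simp only [hrA a ha] at h3
    show (if hx : a ∈ B t then g k ⟨a, hx⟩ else 0) = 0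
    rw [eg k a ha.1]
    exact abs_eq_zero.1 (le_antisymm h3 (abs_nonneg _))
  · intro k x hx a ha
    show |(if hx : x ∈ B t then g k ⟨x, hx⟩ else 0)| ≤ d x a
    rw [eg k x hx]
    exact (hb k ⟨x, hx⟩).trans (hr1 x a (hAS a ha))
  · intro x hx y hy
    show _ ≤ ∑ k, q k * |(if hx : x ∈ B t then g k ⟨x, hx⟩ else 0) -
      (if hy : y ∈ B t then g k ⟨y, hy⟩ else 0)|
    simp only [eg _ x hx, eg _ y hy]
    exact hlo ⟨x, hx⟩ ⟨y, hy⟩
  · intro x hx y hy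
    show ∑ k, q k * |(if hx : x ∈ B t then g k ⟨x, hx⟩ else 0) -
      (if hy : y ∈ B t then g k ⟨y, hy⟩ else 0)| ≤ _
    simp only [eg _ x hx, eg _ y hy]
    exact hup ⟨x, hx⟩ ⟨y, hy⟩
  · intro x hx y hy
    obtain ⟨a, ha, e⟩ := hr2 y
    rcases hAc with h3 | h3
    · exact Or.inr ⟨a, h3 a ha, e.symm⟩
    · left
      obtain ⟨b, hb', e'⟩ := hr2 x
      rw [e, e', h3 a ha, h3 b hb', hd.symm y r0]
      exact hd.tri x r0 y

/-- the lower bound on a bag -/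
theorem low {D rx ry c0 Fr FN S Frxa Frya dxa dya : ℝ} (hc0 : 0 < c0) (hc01 : c0 ≤ 1)
    (hD : 0 ≤ D) (hFr : 0 ≤ Fr) (hFN : 0 ≤ FN) (hrx : 0 ≤ rx) (hry : 0 ≤ ry)
    (h1 : c0 * |rx - ry| ≤ Fr) (h2 : c0 * S ≤ FN)
    (h3 : min D (rx + ry) / 48 - |rx - ry| / 3 ≤ S)
    (h4 : D ≤ rx + ry ∨ (dya = ry ∧ D ≤ dxa + dya ∧ c0 * dxa ≤ Frxa ∧ Frxa ≤ Fr + Frya ∧
      Frya ≤ 2 * dya)) : c0 ^ 2 / 384 * D ≤ Fr + FN := by
  have h5 : c0 * (min D (rx + ry) / 48) ≤ Fr + FN := by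
    have h6 : c0 * (min D (rx + ry) / 48 - |rx - ry| / 3) ≤ c0 * S :=
      mul_le_mul_of_nonneg_left h3 hc0.le
    have h7 : c0 * (min D (rx + ry) / 48 - |rx - ry| / 3) =
      c0 * (min D (rx + ry) / 48) - c0 * |rx - ry| / 3 := by ring
    have h8 : 0 ≤ c0 * |rx - ry| := mul_nonneg hc0.le (abs_nonneg _)
    linarith
  have hcc : c0 ^ 2 ≤ c0 := by nlinarith
  by_cases hbig : c0 / 8 * D ≤ rx + ry
  · have h6 : c0 / 8 * D ≤ min D (rx + ry) := le_min (by nlinarith) hbig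
    have h7 : c0 * (c0 / 8 * D / 48) ≤ c0 * (min D (rx + ry) / 48) :=
      mul_le_mul_of_nonneg_left (by linarith) hc0.le
    have h8 : c0 * (c0 / 8 * D / 48) = c0 ^ 2 / 384 * D := by ring
    linarith
  · push Not at hbig
    have h6 : c0 / 8 * D ≤ D := by nlinarith
    rcases h4 with h4 | ⟨e1, e2, e3, e4, e5⟩
    · linarith
    · have h7 : D - c0 / 8 * D ≤ dxa := by linarith
      have h8 : c0 * (D - c0 / 8 * D) ≤ c0 * dxa := mul_le_mul_of_nonneg_left h7 hc0.le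
      have h9 : c0 * (D - c0 / 8 * D) = c0 * D - c0 ^ 2 / 8 * D := by ring
      have h10 : c0 ^ 2 * D ≤ c0 * D := mul_le_mul_of_nonneg_right hcc hD
      have h11 : c0 ^ 2 / 384 * D = c0 ^ 2 * D / 384 := by ring
      have h12 : c0 ^ 2 / 8 * D = c0 ^ 2 * D / 8 := by ring
      have h13 : 0 ≤ c0 * D := mul_nonneg hc0.le hD
      have h14 : c0 / 8 * D = c0 * D / 8 := by ring
      linarith

/-- **[CX4]** -/
theorem cx4 (hM : MetStmt) : CXStmt := by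
  classical
  intro C k hC
  obtain ⟨c0, C2, hc0, hc01, hC2, hmet⟩ := hM (max k 1) (le_max_right _ _)
  have hM0 : 0 < 2 * C + 5 := by linarith
  obtain ⟨c, hc⟩ : ∃ c : ℝ, c = c0 ^ 2 / 384 / (2 * C + 5) := ⟨_, rfl⟩
  have hcp : 0 < c := by
    rw [hc]
    positivity
  have hc1 : c ≤ 1 := by
    rw [hc, div_le_one hM0]
    have : c0 ^ 2 ≤ 1 := by nlinarith
    linarith
  obtain ⟨c', hc'⟩ : ∃ c' : ℝ, c' = min (c / 2) (c / (8 * C2)) / 3 := ⟨_, rfl⟩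
  have hc'0 : 0 < c' := by
    rw [hc']
    have : 0 < min (c / 2) (c / (8 * C2)) := lt_min (by positivity) (by positivity)
    linarith
  have hc'1 : c' ≤ 1 := by
    rw [hc']
    have : min (c / 2) (c / (8 * C2)) ≤ c / 2 := min_le_left _ _
    linarith
  refine ⟨1 / c', (one_le_div hc'0).2 hc'1, ?_⟩
  intro V _ G H n B hle hconn hglue hnew hbag hpar ℓ hℓ
  have h : Glued (max k 1) H n B :=
    ⟨hglue.cover, fun t ht => (hglue.card t ht).trans (le_max_left _ _), hglue.clique, hglue.sep⟩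
  obtain ⟨T, hT⟩ : ∃ T : BTree n B,
      ∀ t < n, 0 < t → (Adh B t \ Adh B (T.par t)).Subsingleton := by
    let p : ℕ → ℕ := fun u => if hu : u < n ∧ 0 < u then (hpar u hu.1 hu.2).choose else 0
    have hp : ∀ u, ∀ h1 : u < n, ∀ h2 : 0 < u, p u < u ∧ Adh B u ⊆ B (p u) ∧
        (Adh B u \ Adh B (p u)).Subsingleton := by
      intro u h1 h2
      have e : p u = (hpar u h1 h2).choose := dif_pos ⟨h1, h2⟩
      rw [e]
      exact (hpar u h1 h2).choose_spec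
    refine ⟨⟨p, dif_neg (by omega), fun t => ?_, fun t h1 h2 => (hp t h2 h1).1,
      fun t h1 h2 => (hp t h2 h1).2.1⟩, fun t h1 h2 => (hp t h1 h2).2.2⟩
    by_cases ht : t < n ∧ 0 < t
    · exact (hp t ht.1 ht.2).1.le
    · have e : p t = 0 := dif_neg ht
      rw [e]
      exact Nat.zero_le _
  obtain ⟨d, hdd⟩ : ∃ d, d = pathDist G ℓ := ⟨_, rfl⟩
  have hd : IsMet d := by
    rw [hdd]
    exact pathDist_isMet hconn hℓ
  have hgen : Gen H d := by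
    rw [hdd]
    intro f hf x y
    exact pathDist_gen hconn (fun u v huv => (hf u v (hle huv)).trans (pathDist_adj hℓ huv)) x y
  have hb := fun t : Fin n => bag h hd hgen hC t.2
    (by obtain ⟨v, hv, _⟩ := hnew t.1 t.2; exact ⟨v, hv⟩) (hbag t.1 t.2)
  choose r κ hκ q g hq hq1 hr0 hrb hg0 hgb hrl hlo hup hrn hnear using hb
  obtain ⟨Fr, hFr, r1, r2, r3, r4⟩ := hmet V H n B h T hnew hT d hd hgen
    (fun t => if ht : t < n then r ⟨t, ht⟩ else fun _ => 0)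
    (fun t ht a ha => by
      simp only [dif_pos ht]
      exact hr0 ⟨t, ht⟩ a ha)
    (fun t ht x hx a ha => by
      simp only [dif_pos ht]
      exact hrb ⟨t, ht⟩ x hx a ha)
  have hω := fun ω : (∀ t : Fin n, κ t) => hmet V H n B h T hnew hT d hd hgen
    (fun t => if ht : t < n then g ⟨t, ht⟩ (ω ⟨t, ht⟩) else fun _ => 0)
    (fun t ht a ha => by
      simp only [dif_pos ht]
      exact hg0 ⟨t, ht⟩ _ a ha)
    (fun t ht x hx a ha => by
      simp only [dif_pos ht]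
      exact hgb ⟨t, ht⟩ _ x hx a ha)
  choose F hF f1 f2 f3 f4 using hω
  obtain ⟨P, hP⟩ : ∃ P : (∀ t : Fin n, κ t) → ℝ, P = fun ω => ∏ i, q i (ω i) := ⟨_, rfl⟩
  have hP0 : ∀ ω, 0 ≤ P ω := fun ω => by
    rw [hP]
    exact Finset.prod_nonneg fun i _ => hq i _
  have hPm : ∀ (t : Fin n) (f : ∀ i, κ i → ℝ), ∑ ω, P ω * f t (ω t) = ∑ j, q t j * f t j := by
    intro t f
    rw [hP]
    exact marg q hq1 f t
  have hP1 : ∀ t : Fin n, ∑ ω, P ω = 1 := by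
    intro t
    have h1 := hPm t (fun _ _ => 1)
    simp only [mul_one] at h1
    rw [h1]
    exact hq1 t
  obtain ⟨FN, hFNe⟩ : ∃ FN : V → V → ℝ, FN = fun x y => ∑ ω, P ω * F ω x y := ⟨_, rfl⟩
  have hFN : IsL1 FN := by
    rw [hFNe]
    exact IsL1.sum Finset.univ (fun ω x y => P ω * F ω x y) fun ω _ => (hF ω).smul (hP0 ω)
  have hup' : ∀ t (ht : t < n), ∀ x ∈ B t, ∀ y ∈ B t, FN x y ≤ (2 * C + 3) * d x y := by
    intro t ht x hx y hy
    have h1 : FN x y ≤ ∑ ω, P ω * (d x y + |g ⟨t, ht⟩ (ω ⟨t, ht⟩) x - g ⟨t, ht⟩ (ω ⟨t, ht⟩) y|) := by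
      rw [hFNe]
      refine Finset.sum_le_sum fun ω _ => mul_le_mul_of_nonneg_left ?_ (hP0 ω)
      have h2 := f1 ω t ht x hx y hy
      simp only [dif_pos ht] at h2
      exact h2
    have h2 : ∑ ω, P ω * (d x y + |g ⟨t, ht⟩ (ω ⟨t, ht⟩) x - g ⟨t, ht⟩ (ω ⟨t, ht⟩) y|) =
        d x y + ∑ j, q ⟨t, ht⟩ j * |g ⟨t, ht⟩ j x - g ⟨t, ht⟩ j y| := by
      simp only [mul_add, Finset.sum_add_distrib]
      rw [← Finset.sum_mul, hP1 ⟨t, ht⟩, one_mul]
      rw [hPm ⟨t, ht⟩ (fun i j => |g i j x - g i j y|)]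
    have h3 := hup ⟨t, ht⟩ x hx y hy
    rw [h2] at h1
    linarith
  have hlo' : ∀ t (ht : t < n), ∀ x ∈ B t, ∀ y ∈ B t,
      c0 * ∑ j, q ⟨t, ht⟩ j * |g ⟨t, ht⟩ j x - g ⟨t, ht⟩ j y| ≤ FN x y := by
    intro t ht x hx y hy
    rw [← hPm ⟨t, ht⟩ (fun i j => |g i j x - g i j y|), hFNe, Finset.mul_sum]
    refine Finset.sum_le_sum fun ω _ => ?_
    have h2 := f2 ω t ht x hx y hy
    simp only [dif_pos ht] at h2
    have h3 := mul_le_mul_of_nonneg_left h2 (hP0 ω)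
    calc c0 * (P ω * |g ⟨t, ht⟩ (ω ⟨t, ht⟩) x - g ⟨t, ht⟩ (ω ⟨t, ht⟩) y|) =
        P ω * (c0 * |g ⟨t, ht⟩ (ω ⟨t, ht⟩) x - g ⟨t, ht⟩ (ω ⟨t, ht⟩) y|) := by ring
      _ ≤ _ := h3
  have hFr2 : ∀ t (ht : t < n), ∀ x ∈ B t, ∀ y ∈ B t, Fr x y ≤ 2 * d x y := by
    intro t ht x hx y hy
    have h1 := r1 t ht x hx y hy
    simp only [dif_pos ht] at h1
    have h2 := hrl ⟨t, ht⟩ x hx y hy
    linarith
  have hlow : ∀ t < n, ∀ x ∈ B t, ∀ y ∈ B t, c0 ^ 2 / 384 * d x y ≤ Fr x y + FN x y := by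
    intro t ht x hx y hy
    have g1 := r2 t ht x hx y hy
    simp only [dif_pos ht] at g1
    rcases hnear ⟨t, ht⟩ x hx y hy with hn | ⟨a, ha, hn⟩
    · exact low (Frxa := 0) (Frya := 0) (dxa := 0) (dya := 0) hc0 hc01 (hd.nonneg x y)
        (hFr.nonneg x y) (hFN.nonneg x y) (hrn ⟨t, ht⟩ x) (hrn ⟨t, ht⟩ y) g1
        (hlo' t ht x hx y hy) (hlo ⟨t, ht⟩ x hx y hy) (Or.inl hn)
    · have g2 := r3 t ht x hx a ha
      have g3 := hFr2 t ht y hy a ha.1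
      have g4 := hFr.tri x y a
      have g5 := hd.tri x a y
      rw [hd.symm a y] at g5
      exact low (Frxa := Fr x a) (Frya := Fr y a) (dxa := d x a) (dya := d y a) hc0 hc01
        (hd.nonneg x y) (hFr.nonneg x y) (hFN.nonneg x y) (hrn ⟨t, ht⟩ x) (hrn ⟨t, ht⟩ y) g1
        (hlo' t ht x hx y hy) (hlo ⟨t, ht⟩ x hx y hy)
        (Or.inr ⟨hn, g5, g2, g4, g3⟩)
  have glob : ∀ F' : V → V → ℝ, IsL1 F' → (∀ t < n, ∀ x ∈ B t, ∀ y ∈ B t, F' x y ≤ d x y) →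
      ∀ x y, F' x y ≤ d x y := by
    intro F' hF' h1
    refine hF'.le_of_gen hgen fun u v huv => ?_
    rcases le_total (h.it u) (h.it v) with h2 | h2
    · exact h1 _ (h.it_lt v) u (h.edge huv h2) v (h.it_mem v)
    · exact h1 _ (h.it_lt u) u (h.it_mem u) v (h.edge huv.symm h2)
  have hFA : IsL1 fun x y => 1 / (2 * C + 5) * (Fr x y + FN x y) :=
    (hFr.add hFN).smul (by positivity)
  have hA1 : ∀ x y, 1 / (2 * C + 5) * (Fr x y + FN x y) ≤ d x y := by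
    refine glob _ hFA fun t ht x hx y hy => ?_
    have h1 := hFr2 t ht x hx y hy
    have h2 := hup' t ht x hx y hy
    rw [one_div, inv_mul_le_iff₀ hM0]
    linarith
  have hA2 : ∀ t < n, ∀ x ∈ B t, ∀ y ∈ B t, c * d x y ≤ 1 / (2 * C + 5) * (Fr x y + FN x y) := by
    intro t ht x hx y hy
    have h1 := hlow t ht x hx y hy
    have h2 : c * d x y = 1 / (2 * C + 5) * (c0 ^ 2 / 384 * d x y) := by
      rw [hc]
      ring
    rw [h2]
    exact mul_le_mul_of_nonneg_left h1 (by positivity)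
  have hFrg : ∀ x y, 1 / 2 * Fr x y ≤ d x y :=
    glob _ (hFr.smul (by norm_num)) fun t ht x hx y hy => by
      have h1 := hFr2 t ht x hx y hy
      linarith
  have hcr := K5.H12.cross h T hd hcp hc1 hC2 hFA hFr hA1 hA2 r4
  have hE : R2.H598.Emb d c' := by
    refine ⟨fun x y => 1 / 3 * (1 / (2 * C + 5) * (Fr x y + FN x y) + Fr x y),
      (hFA.add hFr).smul (by norm_num), ?_, ?_⟩
    · intro x y
      have h1 := hcr x y
      have h2 : c' * d x y = 1 / 3 * (min (c / 2) (c / (8 * C2)) * d x y) := by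
        rw [hc']
        ring
      show _ ≤ 1 / 3 * (1 / (2 * C + 5) * (Fr x y + FN x y) + Fr x y)
      rw [h2]
      linarith
    · intro x y
      have h1 := hA1 x y
      have h2 := hFrg x y
      show 1 / 3 * (1 / (2 * C + 5) * (Fr x y + FN x y) + Fr x y) ≤ _
      linarith
  rw [← hdd]
  exact hE.embedsL1 hc'0

end Vale.Agent.P235.H237.CX
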